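import Vale.Agent.P277Z.Rst.Defs
import Vale.Agent.P277Z.Lo.Base
import Vale.Agent.P277Z.Bert.Api

/-!
# P277Z, block RST: the residue of the Jacobian determinant
-/

set_option linter.all false

open scoped Manifold ContDiff Topology
open Set Filter
open Vale.Agent.P272.K (Cm Chart At)
open Vale.Agent.P297 (Place)

noncomputable section

namespace Vale.Agent.P277Z.Rs

open Lo

namespace Adj

theorem det_mat {n : ℕ} (G T : Matrix (Fin (n + 1)) (Fin (n + 1)) ℂ)
    (F : Matrix (Fin (n + 1)) (Fin n) ℂ) (i : Fin (n + 1)) (h : ℂ) (h0 : ∀ l, G 0 l = h * T i l)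
    (h1 : ∀ k, (T * F) i k = 0) (hT : T.det ≠ 0) :
    G.det * ((T * F).submatrix i.succAbove id).det =
      (-1) ^ (i : ℕ) * h * ((G * F).submatrix Fin.succ id).det * T.det := by
  obtain ⟨A, rfl⟩ : ∃ A, G = A * T := ⟨G * T⁻¹, (Matrix.nonsing_inv_mul_cancel_right T G hT.isUnit).symm⟩
  have a0 : ∀ l, A 0 l = if i = l then h else 0 := fun l => by
    have e := congrFun (congrFun (Matrix.mul_nonsing_inv T hT.isUnit) i) l
    rw [← Matrix.mul_nonsing_inv_cancel_right T A hT.isUnit, Matrix.mul_apply]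
    simp only [h0, mul_assoc, ← Finset.mul_sum]
    rw [← Matrix.mul_apply, e, Matrix.one_apply, mul_ite, mul_one, mul_zero]
  have a1 : (A * T * F).submatrix Fin.succ id =
      A.submatrix Fin.succ i.succAbove * (T * F).submatrix i.succAbove id := by
    ext k m
    rw [Matrix.mul_assoc, Matrix.submatrix_apply, Matrix.mul_apply, Fin.sum_univ_succAbove _ i,
      h1, mul_zero, zero_add]
    rfl
  rw [a1, Matrix.det_mul, Matrix.det_mul, Matrix.det_succ_row_zero, Finset.sum_eq_single i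
    (fun l _ hl => by rw [a0, if_neg hl.symm, mul_zero, zero_mul]) (by simp), a0, if_pos rfl]
  ring

theorem det_lin {n : ℕ} (G T : Cm (n + 1) →ₗ[ℂ] Cm (n + 1)) (F : Cm n →ₗ[ℂ] Cm (n + 1))
    (G' T' : Cm n →ₗ[ℂ] Cm n) (i : Fin (n + 1)) (h : ℂ) (h0 : ∀ v, G v 0 = h * T v i)
    (h1 : ∀ u, T (F u) i = 0) (hG : ∀ u k, G' u k = G (F u) k.succ)
    (hT : ∀ u k, T' u k = T (F u) (i.succAbove k)) (hd : LinearMap.det T ≠ 0) :
    LinearMap.det G * LinearMap.det T' =
      (-1) ^ (i : ℕ) * h * LinearMap.det G' * LinearMap.det T := by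
  have := det_mat (LinearMap.toMatrix' G) (LinearMap.toMatrix' T) (LinearMap.toMatrix' F) i h
    (fun l => h0 _) (fun k => by rw [← LinearMap.toMatrix'_comp]; exact h1 _)
    (by rwa [LinearMap.det_toMatrix'])
  rw [← LinearMap.toMatrix'_comp, ← LinearMap.toMatrix'_comp,
    show (LinearMap.toMatrix' (T ∘ₗ F)).submatrix i.succAbove id = LinearMap.toMatrix' T' from
      Matrix.ext fun k m => (hT _ k).symm,
    show (LinearMap.toMatrix' (G ∘ₗ F)).submatrix Fin.succ id = LinearMap.toMatrix' G' from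
      Matrix.ext fun k m => (hG _ k).symm] at this
  simpa only [LinearMap.det_toMatrix'] using this

section mfd

variable {n m : ℕ} {W W' : Type} [TopologicalSpace W] [ChartedSpace (Cm m) W]
  [TopologicalSpace W'] [ChartedSpace (Cm n) W']

theorem cont_jd {g : Fin m → W → ℂ} {e : Chart m W} {x : W} (he : At e x)
    (h : ∀ i, Hol m (g i) x) : ContinuousAt (jd g e) x :=
  ContinuousLinearMap.continuous_det.continuousAt.comp
    ((Bert.an_pi he h).fderiv.continuousAt.comp (e.continuousAt he.2))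

theorem fderiv_pi {g : Fin m → W → ℂ} {e : Chart m W} {x : W} (he : At e x)
    (h : ∀ i, Hol m (g i) x) (v : Cm m) (i : Fin m) :
    fderiv ℂ (fun z i => g i (e.symm z)) (e x) v i = fderiv ℂ (fun z => g i (e.symm z)) (e x) v := by
  rw [_root_.fderiv_pi fun i => (h i e he).differentiableAt]
  rfl

theorem chain {ι : W' → W} {e : Chart m W} {c : Chart n W'} {z : W'} (he : At e (ι z))
    (hc : At c z) (hι : ContinuousAt ι z)
    (hΦ : DifferentiableAt ℂ (fun u => e (ι (c.symm u))) (c z)) {a : W → ℂ} {b : W' → ℂ}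
    (ha : Hol m a (ι z)) (hb : ∀ᶠ z' in 𝓝 z, b z' = a (ι z')) :
    HasFDerivAt (fun u => b (c.symm u)) ((fderiv ℂ (fun u => a (e.symm u)) (e (ι z))).comp
      (fderiv ℂ (fun u => e (ι (c.symm u))) (c z))) (c z) := by
  have h1 : HasFDerivAt (fun u => a (e.symm u)) (fderiv ℂ (fun u => a (e.symm u)) (e (ι z)))
      (e (ι (c.symm (c z)))) := by
    rw [c.left_inv hc.2]
    exact (ha e he).differentiableAt.hasFDerivAt
  refine (h1.comp (c z) hΦ.hasFDerivAt).congr_of_eventuallyEq ?_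
  filter_upwards [(tendsto_symm hc).eventually
    (hb.and (hι.eventually (e.open_source.mem_nhds he.2)))] with u hu
  rw [hu.1, Function.comp_apply, e.left_inv hu.2]

end mfd

theorem jd_adj {n : ℕ} {W W' : Type} [TopologicalSpace W] [ChartedSpace (Cm (n + 1)) W]
    [TopologicalSpace W'] [ChartedSpace (Cm n) W'] {ι : W' → W} {e : Chart (n + 1) W}
    {c : Chart n W'} {z : W'} (he : At e (ι z)) (hc : At c z) (hι : ContinuousAt ι z)
    (hΦ : DifferentiableAt ℂ (fun u => e (ι (c.symm u))) (c z)) {g t : Fin (n + 1) → W → ℂ}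
    {g' t' : Fin n → W' → ℂ} {h : W → ℂ} {i : Fin (n + 1)} (hg : ∀ k, Hol (n + 1) (g k) (ι z))
    (ht : ∀ k, Hol (n + 1) (t k) (ι z)) (hh : Hol (n + 1) h (ι z))
    (h0 : ∀ᶠ w in 𝓝 (ι z), g 0 w = t i w * h w) (h1 : ∀ᶠ z' in 𝓝 z, 0 = t i (ι z'))
    (hg' : ∀ k, ∀ᶠ z' in 𝓝 z, g' k z' = g k.succ (ι z'))
    (ht' : ∀ k, ∀ᶠ z' in 𝓝 z, t' k z' = t (i.succAbove k) (ι z')) (hd : jd t e (ι z) ≠ 0) :
    jd g e (ι z) * jd t' c z = (-1) ^ (i : ℕ) * h (ι z) * jd g' c z * jd t e (ι z) := by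
  refine det_lin _ _ (fderiv ℂ (fun u => e (ι (c.symm u))) (c z)) _ _ i _ (fun v => ?_)
    (fun u => ?_) (fun u k => ?_) (fun u k => ?_) hd
  · have := (ht i e he).differentiableAt.hasFDerivAt.mul (hh e he).differentiableAt.hasFDerivAt
    erw [fderiv_pi he hg, fderiv_pi he ht,
      (this.congr_of_eventuallyEq ((tendsto_symm he).eventually h0)).fderiv]
    simp [e.left_inv he.2, ← h1.self_of_nhds]
  · erw [fderiv_pi he ht]
    exact DFunLike.congr_fun ((chain he hc hι hΦ (b := fun _ => 0) (ht i) h1).unique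
      (hasFDerivAt_const _ _)) u
  · erw [fderiv_pi he hg, (hasFDerivAt_pi.2 fun k => chain he hc hι hΦ (hg _) (hg' k)).fderiv]
    rfl
  · erw [fderiv_pi he ht, (hasFDerivAt_pi.2 fun k => chain he hc hι hΦ (ht _) (ht' k)).fderiv]
    rfl

variable {n N : ℕ} {K L : Type} [Field K] [Algebra ℂ K] [Field L] [Algebra ℂ L] {S : Mdl n N L}
  {M : Mdl (n + 1) N K} {P : Place K}

theorem res_ne (s : Sub S M P) {f : K} (hf : f ∈ P.ring) (h0 : f ≠ 0) (h1 : P.ord f = 0) :
    s.res f ≠ 0 := fun e => ((s.res_zero f hf).1 e).elim h0 (by omega)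

/-- elements of the ring of `P` are holomorphic at the general points of `S` -/
theorem gen_hol (s : Sub S M P) (y : S.F) {t : K} (ht : M.Gn (pt s y) P t) {f : K}
    (hf : f ∈ P.ring) : ∀ᶠ z in gen {(y : S.W)}, Hol (n + 1) (M.val f) (s.ι z) ∧
      ∀ᶠ z' in 𝓝 z, S.val (s.res f) z' = M.val f (s.ι z') := by
  obtain ⟨b, hb, b0, b1, hbf⟩ := ht.loc f hf
  have h1 : ∀ᶠ w in 𝓝 (s.ι y), M.val b w ≠ 0 → M.val f w = M.val (b * f) w / M.val b w := by
    filter_upwards [Hol.near hb, Hol.near hbf, gen_near (M.at_pt (M.val_mul b f) (pt s y)),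
      (M.can f).filter_mono (nhds_le_nhdsSet (s.mem y y.2))] with w a1 a2 a3 a4 a5
    refine a4 _ (hol_div a2 a1 a5) ?_
    filter_upwards [a3, gen_of_nhds (hol_ne a1 a5)] with u a6 a7
    rw [a6, mul_div_cancel_left₀ _ a7]
  have h2 : ∀ᶠ w in 𝓝 (s.ι y), M.val b w ≠ 0 → Hol (n + 1) (M.val f) w := by
    filter_upwards [Hol.near hb, Hol.near hbf, h1.eventually_nhds] with w a1 a2 a3 a5
    refine (hol_div a2 a1 a5).congr ?_
    filter_upwards [a3, hol_ne a1 a5] with u a6 a7 using (a6 a7).symm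
  refine (gen_interior (p := fun z => Hol (n + 1) (M.val f) (s.ι z) ∧
    S.val (s.res f) z = M.val f (s.ι z)) ?_).mono fun z hz =>
      ⟨hz.self_of_nhds.1, hz.mono fun _ h => h.2⟩
  filter_upwards [gen_of_nhds ((s.cont.tendsto y).eventually (h1.and h2)),
    gen_of_nhds (s.val y b hb), gen_of_nhds (s.val y _ hbf),
    S.at_pt (S.val_ne (res_ne s (ht.le b hb) b0 b1)) y,
    S.at_pt (S.val_mul (s.res b) (s.res f)) y] with z a1 a2 a3 a4 a5
  rw [a2] at a4
  refine ⟨a1.2 a4, ?_⟩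
  rw [a1.1 a4, ← a3, s.res_mul b (ht.le b hb) f hf, a5, a2, mul_div_cancel_left₀ _ a4]

end Adj

open Adj

theorem adj (n : ℕ) : ADJ n := by
  intro N K L _ _ _ _ S M P s y t g i j j' hc ht h0 hg hj hj' j0
  have g0 : g 0 ≠ 0 := fun e => by simp [e] at h0
  have t0 := Bert.Gn.ne ht
  have o1 : P.ord (g 0 / t i) = 0 := by rw [P297Z.Pl.ord_div P g0 t0, h0, ht.ord, sub_self]
  have m1 : g 0 / t i ∈ P.ring := (P297Z.Pl.ord_nonneg_iff P (div_ne_zero g0 t0)).1 o1.ge
  have m2 : ∀ k, g k ∈ P.ring :=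
    Fin.cases ((P297Z.Pl.ord_nonneg_iff P g0).1 (by omega)) hg
  have m3 : ∀ k, t k ∈ P.ring := fun k => ht.le _ (hc.1 k).1
  have r0 : s.res (t i) = 0 := (s.res_zero _ (m3 i)).2 (.inr (by rw [ht.ord]; exact one_pos))
  have he := at_chartAt (n := n + 1) (s.ι y)
  have hy := at_chartAt (n := n) (y : S.W)
  generalize chartAt (Cm (n + 1)) (s.ι y) = e at he
  generalize chartAt (Cm n) (y : S.W) = c at hy
  have hι := s.cont.tendsto y
  have hΦ : AnalyticAt ℂ (fun u => e (s.ι (c.symm u))) (c y) := analyticAt_pi_iff.2 fun k =>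
    s.hol y y.2 (fun w => e w k) (fun _ he' => analyticAt_pi_iff.1 (trans_an he he') k) c hy
  have hs := s.coord y t i hc ht
  have key : ∀ᶠ z in gen {(y : S.W)}, ContinuousAt (jd (fun k => M.val (g k)) e) (s.ι z) ∧
      ContinuousAt (jd (fun k => M.val (t k)) e) (s.ι z) ∧ jd (fun k => M.val (t k)) e (s.ι z) ≠ 0 ∧
      jd (fun k => M.val (g k)) e (s.ι z) = (-1) ^ (i : ℕ) * S.val (s.res (g 0 / t i)) z *
        S.val j' z * jd (fun k => M.val (t k)) e (s.ι z) := by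
    filter_upwards [eventually_all.2 fun k => gen_hol s y ht (m2 k),
      eventually_all.2 fun k => gen_hol s y ht (m3 k), gen_hol s y ht m1, hj' y y.2 c hy,
      gen_of_nhds (hι.eventually ((gen_near (M.at_pt (M.val_mul (t i) (g 0 / t i)) (pt s y))).and
        (((cont_jd he fun k => (hc.1 k).1).eventually_ne (hc.2 e he)).and
          (e.open_source.mem_nhds he.2)))),
      gen_of_nhds (((cont_jd hy fun k => (hs.1 k).1).eventually_ne (hs.2 c hy)).and
        (((c.continuousAt hy.2).eventually hΦ.eventually_analyticAt).and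
          (c.open_source.mem_nhds hy.2)))] with z a1 a2 a3 a4 ⟨a5, a6, a7⟩ ⟨a8, a9, a10⟩
    rw [mul_div_cancel₀ _ t0] at a5
    have he' : At e (s.ι z) := ⟨he.1, a7⟩
    refine ⟨cont_jd he' fun k => (a1 k).1, cont_jd he' fun k => (a2 k).1, a6,
      mul_right_cancel₀ a8 ?_⟩
    rw [jd_adj he' ⟨hy.1, a10⟩ s.cont.continuousAt a9.differentiableAt (fun k => (a1 k).1)
      (fun k => (a2 k).1) a3.1 (hol_eq_of_gen (a1 0).1 (hol_mul (a2 i).1 a3.1) a5)
      ((a2 i).2.mono fun z' h => by rw [← h, r0, S.val_zero]) (fun k => (a1 k.succ).2)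
      (fun k => (a2 _).2) a6, a4, a3.2.self_of_nhds]
    ring
  have hJ := hι.eventually (gen_near (hj _ (s.mem y y.2) e he))
  have hjP : j ∈ P.ring := by
    by_contra hn
    have j1 : j ≠ 0 := fun e => hn (e ▸ zero_mem _)
    have o2 : P.ord j < 0 := lt_of_not_ge fun h => hn ((P297Z.Pl.ord_nonneg_iff P j1).1 h)
    have o3 : 0 < P.ord j⁻¹ := by rw [P297Z.Pl.ord_inv]; omega
    have m4 : j⁻¹ ∈ P.ring := (P297Z.Pl.ord_nonneg_iff P (inv_ne_zero j1)).1 o3.le
    obtain ⟨z, ⟨a1, a2, a3, -⟩, a4, a5, a6, a7⟩ := (key.and ((gen_hol s y ht m4).and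
      (gen_of_nhds (hJ.and (hι.eventually ((gen_near (M.at_pt (M.val_inv j) (pt s y))).and
        (gen_near (M.at_pt (M.val_ne j1) (pt s y))))))))).exists
    refine a3 ?_
    rw [eq_of_gen a2 ((hol_cont a4.1).mul a1) (by
      filter_upwards [a5, a6, a7] with u b1 b2 b3
      rw [Pi.mul_apply, b1, b2, inv_mul_cancel_left₀ b3]), Pi.mul_apply, ← a4.2.self_of_nhds,
      (s.res_zero _ m4).2 (.inr o3), S.val_zero, zero_mul]
  have e1 : s.res j = (-1) ^ (i : ℕ) * s.res (g 0 / t i) * j' := S.eq_of_val y (by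
    filter_upwards [key, gen_hol s y ht hjP, gen_of_nhds hJ,
      S.at_pt (S.val_mul ((-1) ^ (i : ℕ) * s.res (g 0 / t i)) j') y,
      S.at_pt (S.val_mul ((-1) ^ (i : ℕ)) (s.res (g 0 / t i))) y]
      with z ⟨a1, a2, a3, a4⟩ a5 a6 a7 a8
    have a9 := S.val_const ((-1) ^ (i : ℕ)) z
    rw [map_pow, map_neg, map_one] at a9
    rw [a7, a8, a9, a5.2.self_of_nhds]
    exact mul_right_cancel₀ a3 ((eq_of_gen a1 ((hol_cont a5.1).mul a2) a6).symm.trans a4))
  have e2 : s.res j ≠ 0 := e1 ▸ mul_ne_zero (mul_ne_zero (pow_ne_zero _ (neg_ne_zero.2 one_ne_zero))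
    (res_ne s m1 (div_ne_zero g0 t0) o1)) j0
  have e3 := not_or.1 (mt (s.res_zero j hjP).2 e2)
  exact ⟨e3.1, le_antisymm (not_lt.1 e3.2) (P297Z.Pl.ord_nonneg_of_mem P hjP), e1⟩

end Vale.Agent.P277Z.Rs
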