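import Vale.Agent.P277Z.Rst.Defs
import Vale.Agent.P277Z.Lo.Base
import Vale.Agent.P277Z.Sub.Hyp

/-!
# P277Z, block RST: the strict transform of a smooth prime divisor is a modification
-/

open scoped Manifold ContDiff Topology
open Set Filter
open Vale.Agent.P272.K (Cm Chart At)
open Vale.Agent.P297 (Place)

noncomputable section

namespace Vale.Agent.P277Z.Rs

open Lo SubH

namespace ModgAux

theorem dom_of {W W' : Type} [TopologicalSpace W] [TopologicalSpace W'] {g : W' → W} {y : W'}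
    (hc : ContinuousAt g y) (h : ∀ᶠ z in gen {y}, ContinuousAt g z ∧ 𝓝 (g z) ≤ map g (𝓝 z)) :
    Tendsto g (gen {y}) (gen {g y}) := by
  intro T hT
  refine gen_of_freq (p := fun z => g z ∈ T) ?_
  filter_upwards [gen_near h, (hc.eventually (gen_near (p := fun w => w ∈ T) hT)).eventually_nhds]
    with z h1 h2
  refine frequently_frequently_nhds.1 (((gen_freq h1).and_eventually h2).mono fun z₁ k => ?_)
  have k1 : ∃ᶠ u in map g (𝓝 z₁), ∀ᶠ v in 𝓝 u, v ∈ T :=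
    (gen_freq k.2).filter_mono k.1.self_of_nhds.2
  exact ((frequently_map.1 k1).and_eventually k.1).mono fun z₂ k2 => k2.2.1.eventually k2.1

theorem map_nhds_of_left {n : ℕ} {G H : Cm n → Cm n} {p : Cm n} (hG : AnalyticAt ℂ G p)
    (hH : AnalyticAt ℂ H (G p)) (h : ∀ᶠ u in 𝓝 p, H (G u) = u) : map G (𝓝 p) = 𝓝 (G p) := by
  have h1 := HasFDerivAt.comp p hH.differentiableAt.hasFDerivAt hG.differentiableAt.hasFDerivAt
  have h2 : (fderiv ℂ H (G p)).comp (fderiv ℂ G p) = ContinuousLinearMap.id ℂ _ :=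
    h1.unique ((hasFDerivAt_id p).congr_of_eventuallyEq h)
  have h3 : Function.Injective (fderiv ℂ G p) := by
    refine Function.Injective.of_comp (f := fderiv ℂ H (G p)) ?_
    rw [← ContinuousLinearMap.coe_comp, h2]
    exact fun _ _ k => k
  exact hG.hasStrictFDerivAt.map_nhds_eq_of_surj (LinearMap.range_eq_top.2
    ((LinearMap.injective_iff_surjective (f := (fderiv ℂ G p : Cm n →ₗ[ℂ] Cm n))).1 h3))

section mfd

variable {n : ℕ} {W W' : Type} [TopologicalSpace W] [ChartedSpace (Cm n) W] [TopologicalSpace W']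
  [ChartedSpace (Cm n) W'] {g : W' → W} {z : W'} {c : Chart n W} {c' : Chart n W'}

omit [ChartedSpace (Cm n) W] in
theorem cont_of (h1 : ∀ᶠ w in 𝓝 z, g w ∈ c.source) (h2 : ∀ j, Hol n (fun w => c (g w) j) z) :
    ContinuousAt g z := by
  have h3 : ContinuousAt (fun w => c (g w)) z := continuousAt_pi.2 fun j => hol_cont (h2 j)
  refine (ContinuousAt.comp (f := fun w => c (g w))
    (c.continuousAt_symm (c.map_source h1.self_of_nhds)) h3).congr ?_
  exact h1.mono fun w hw => c.left_inv hw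

theorem hol_of (hc : Cht c) (h1 : ∀ᶠ w in 𝓝 z, g w ∈ c.source)
    (h2 : ∀ j, Hol n (fun w => c (g w) j) z) (a : W → ℂ) (ha : Hol n a (g z)) :
    Hol n (fun w => a (g w)) z := by
  intro e he
  have h3 : AnalyticAt ℂ (fun v => a (c.symm v)) (c (g (e.symm (e z)))) := by
    rw [e.left_inv he.2]
    exact hc.inv _ h1.self_of_nhds a ha
  refine (h3.fun_comp (f := fun u => c (g (e.symm u)))
    (analyticAt_pi_iff.2 fun j => h2 j e he)).congr ?_
  exact ((tendsto_symm he).eventually h1).mono fun u hu => congrArg a (c.left_inv hu)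

theorem open_of (hc : Cht c) (hc' : Cht c') (hz : z ∈ c'.source)
    (h1 : ∀ᶠ w in 𝓝 z, g w ∈ c.source) (h2 : ∀ j, Hol n (fun w => c (g w) j) z)
    {h : Fin n → W → ℂ} (h3 : ∀ k, Hol n (h k) (g z)) (h4 : ∀ᶠ w in 𝓝 z, ∀ k, h k (g w) = c' w k) :
    𝓝 (g z) ≤ map g (𝓝 z) := by
  have k1 := map_nhds_of_left (G := fun u => c (g (c'.symm u))) (H := fun v k => h k (c.symm v))
    (p := c' z) (analyticAt_pi_iff.2 fun j => hc'.inv z hz _ (h2 j))
    (by
      simp only [c'.left_inv hz]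
      exact analyticAt_pi_iff.2 fun k => hc.inv _ h1.self_of_nhds _ (h3 k))
    (by
      filter_upwards [(tend c' hz).eventually (h1.and h4),
        c'.open_target.mem_nhds (c'.map_source hz)] with u a1 a2
      funext k
      rw [c.left_inv a1.1, a1.2, c'.right_inv a2])
  simp only [c'.left_inv hz] at k1
  rw [← c.symm_map_nhds_eq h1.self_of_nhds, ← k1, ← c'.map_nhds_eq hz, map_map, map_map]
  refine (map_congr ?_).le
  filter_upwards [h1, c'.open_source.mem_nhds hz] with w a1 a2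
  simp only [Function.comp, c'.left_inv a2, c.left_inv a1]

end mfd

variable {n N : ℕ} {K L : Type} [Field K] [Algebra ℂ K] [Field L] [Algebra ℂ L]
  {S S' : Mdl n N L} {M M' : Mdl (n + 1) N K} {P : Place K}

theorem mem_res (s : Sub S M P) (y : S.F) {f : K} (hf : f ∈ M.O (pt s y)) : s.res f ∈ S.O y :=
  (s.hol y y.2 _ hf).congr ((s.val y f hf).mono fun _ => Eq.symm)

theorem ne_res (s : Sub S M P) {b : K} (hb : b ∈ P.ring) (h0 : b ≠ 0) (h : P.ord b = 0) :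
    s.res b ≠ 0 := fun e => ((s.res_zero b hb).1 e).elim h0 fun k => k.ne' h

theorem exists_co (s : Sub S M P) (hS : M.Snc {P}) (y : S.F) :
    ∃ (t : Fin n → K) (c : Chart n S.W), (∀ j, t j ∈ M.O (pt s y)) ∧ Cht c ∧ y.1 ∈ c.source ∧
      ∀ w ∈ c.source, ∀ j, c w j = S.val (s.res (t j)) w := by
  obtain ⟨t, ht, h⟩ := hS.2 (pt s y)
  obtain ⟨i, hi⟩ := h P rfl ((s.on _).2 ⟨y, y.2, rfl⟩)
  have h1 := s.coord y t i ht hi
  obtain ⟨c, h2, h3, h4⟩ := exists_cht (fun j => (h1.1 j).1) h1.2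
  exact ⟨fun j => t (i.succAbove j), c, fun j => (ht.1 _).1, h2, h3, h4⟩

variable (s : Sub S M P) (s' : Sub S' M' P) (m : Mod M' M)

/-- the map between the divisors -/
def gg (z : S'.W) : S.W :=
  haveI : Nonempty S.W := ⟨S.conn.nonempty.some⟩
  Function.invFun s.ι (m.g (s'.ι z))

variable {s s' m}

theorem gg_eq {z : S'.W} {v : S.W} (h : s.ι v = m.g (s'.ι z)) : gg s s' m z = v := by
  have : Nonempty S.W := ⟨v⟩
  rw [gg, ← h]
  exact Function.leftInverse_invFun s.inj v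

theorem exists_pt (hS : M.Snc {P}) (B : Bir M' M m) (y' : S'.F) :
    ∃ y : S.F, s.ι y = m.g (s'.ι y') := by
  obtain ⟨y, hy, e⟩ := (s.on ⟨m.g (s'.ι y'), m.img ▸ mem_image_of_mem _ (s'.mem _ y'.2)⟩).1
    (B.on (pt s' y') _ P rfl ((s'.on _).2 ⟨y', y'.2, rfl⟩) (hS.1 P rfl))
  exact ⟨⟨y, hy⟩, e⟩

section loc

variable (hr : s'.res = s.res) (B : Bir M' M m) {y' : S'.F} {y : S.F} (e : s.ι y = m.g (s'.ι y'))

include hr B e

theorem val0 {f : K} (hf : f ∈ M.O (pt s y)) :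
    ∀ᶠ z in 𝓝 (y' : S'.W), S'.val (s.res f) z = M.val f (m.g (s'.ι z)) := by
  have h := B.le (pt s' y') (pt s y) e.symm
  filter_upwards [s'.val y' f (h.1 hf), (s'.cont.tendsto y').eventually (h.2 f hf)] with z h1 h2
  rw [← hr, h1, h2]

theorem mem_res' {f : K} (hf : f ∈ M.O (pt s y)) : s.res f ∈ S'.O y' :=
  hr ▸ mem_res s' y' ((B.le (pt s' y') (pt s y) e.symm).1 hf)

theorem near {V : Set S.W} (hV : V ∈ 𝓝 (y : S.W)) :
    ∀ᶠ z in 𝓝 (y' : S'.W), gg s s' m z ∈ V ∧ s.ι (gg s s' m z) = m.g (s'.ι z) := by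
  obtain ⟨t, ht⟩ := (s.on (pt s y)).2 ⟨y, y.2, rfl⟩
  have h0 : s.res t = 0 := (s.res_zero t (ht.le t ht.mem)).2 (.inr (by rw [ht.ord]; exact one_pos))
  have h1 : Tendsto (fun z => m.g (s'.ι z)) (𝓝 y') (𝓝 (s.ι y)) :=
    e ▸ (m.cont _ (s'.mem _ y'.2)).tendsto.comp (s'.cont.tendsto y')
  filter_upwards [val0 hr B e ht.mem, h1.eventually (s.img y t ht V hV)] with z h2 h3
  obtain ⟨v, hv, k⟩ := h3 (by rw [← h2, h0, S'.val_zero])
  rw [gg_eq k]
  exact ⟨hv, k⟩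

theorem tendsto_gg : Tendsto (gg s s' m) (𝓝 y') (𝓝 y) :=
  fun _ hV => (near hr B e hV).mono fun _ h => h.1

theorem cont_gg : ContinuousAt (gg s s' m) y' := by
  rw [ContinuousAt, gg_eq e]
  exact tendsto_gg hr B e

theorem key {f : K} (hf : f ∈ M.O (pt s y)) :
    ∀ᶠ z in 𝓝 (y' : S'.W), S'.val (s.res f) z = S.val (s.res f) (gg s s' m z) := by
  filter_upwards [val0 hr B e hf, (tendsto_gg hr B e).eventually (s.val y f hf),
    near hr B e univ_mem] with z h1 h2 h3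
  rw [h1, h2, h3.2]

theorem chart (hS : M.Snc {P}) : ∃ c : Chart n S.W, Cht c ∧
    (∀ᶠ w in 𝓝 (y' : S'.W), gg s s' m w ∈ c.source) ∧
    ∀ j, Hol n (fun w => c (gg s s' m w) j) (y' : S'.W) := by
  obtain ⟨t, c, h1, h2, h3, h4⟩ := exists_co s hS y
  have h5 := (tendsto_gg hr B e).eventually (c.open_source.mem_nhds h3)
  refine ⟨c, h2, h5, fun j => Hol.congr (mem_res' hr B e (h1 j)) ?_⟩
  filter_upwards [h5, key hr B e (h1 j)] with w a1 a2
  rw [a2, h4 _ a1]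

theorem dom_gg (hS : M.Snc {P}) (hS' : M'.Snc {P}) :
    Tendsto (gg s s' m) (gen {(y' : S'.W)}) (gen {(y : S.W)}) := by
  obtain ⟨c, h1, h2, h3⟩ := chart hr B e hS
  obtain ⟨t, c', k1, k2, k3, k4⟩ := exists_co s' hS' y'
  obtain ⟨q, hq⟩ := (s.on (pt s y)).2 ⟨y, y.2, rfl⟩
  obtain ⟨q', hq'⟩ := (s'.on (pt s' y')).2 ⟨y', y'.2, rfl⟩
  choose b b1 b2 b3 b4 using fun j => hq.loc (t j) (hq'.le _ (k1 j))
  have b5 : ∀ j, s.res (b j * t j) = s.res (b j) * s.res (t j) := fun j =>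
    s.res_mul _ (hq.le _ (b1 j)) _ (hq'.le _ (k1 j))
  have b6 : ∀ᶠ w in 𝓝 (y' : S'.W), ∀ j, S.val (s.res (b j)) (gg s s' m w) = S'.val (s.res (b j)) w ∧
      S.val (s.res (b j * t j)) (gg s s' m w) = S.val (s.res (b j)) (gg s s' m w) * c' w j := by
    refine eventually_all.2 fun j => ?_
    filter_upwards [key hr B e (b1 j), key hr B e (b4 j), c'.open_source.mem_nhds k3,
      S'.nhds_mul (mem_res' hr B e (b1 j)) (hr ▸ mem_res s' y' (k1 j))] with w a1 a2 a3 a4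
    rw [← a2, ← a1, b5, a4, k4 w a3, hr]
    exact ⟨rfl, rfl⟩
  rw [← gg_eq e]
  refine dom_of (cont_gg hr B e) ?_
  filter_upwards [eventually_all.2 fun j =>
      gen_interior (S'.at_pt (S'.val_ne (ne_res s (hq.le _ (b1 j)) (b2 j) (b3 j))) y'),
    gen_of_nhds h2.eventually_nhds, gen_of_nhds (eventually_all.2 fun j => (h3 j).near),
    gen_of_nhds b6.eventually_nhds, gen_of_nhds (c'.open_source.mem_nhds k3),
    gen_of_nhds ((tendsto_gg hr B e).eventually (eventually_all.2 fun j =>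
      (Hol.near (mem_res s y (b1 j))).and (Hol.near (mem_res s y (b4 j)))))] with z a1 a2 a3 a4 a5 a6
  refine ⟨cont_of a2 a3, open_of h1 k2 a5 a2 a3
    (h := fun j w => S.val (s.res (b j * t j)) w / S.val (s.res (b j)) w)
    (fun j => hol_div (a6 j).2 (a6 j).1 ?_) ?_⟩
  · rw [(a4.self_of_nhds j).1]
    exact (a1 j).self_of_nhds
  · filter_upwards [a4, eventually_all.2 a1] with w d1 d2 j
    rw [(d1 j).2, mul_div_cancel_left₀ _ ((d1 j).1 ▸ d2 j)]

theorem val_gg (hS : M.Snc {P}) (hS' : M'.Snc {P}) (u : L) :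
    ∀ᶠ z in gen {(y' : S'.W)}, S'.val u z = S.val u (gg s s' m z) := by
  obtain ⟨f, hf, rfl⟩ := s.res_surj u
  obtain ⟨q, hq⟩ := (s.on (pt s y)).2 ⟨y, y.2, rfl⟩
  obtain ⟨b, b1, b2, b3, b4⟩ := hq.loc f hf
  filter_upwards [gen_of_nhds (key hr B e b1), gen_of_nhds (key hr B e b4),
    S'.at_pt (S'.val_ne (ne_res s (hq.le _ b1) b2 b3)) y',
    S'.at_pt (S'.val_mul (s.res b) (s.res f)) y',
    (dom_gg hr B e hS hS').eventually (S.at_pt (S.val_mul (s.res b) (s.res f)) y)]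
    with z a1 a2 a3 a4 a5
  rw [s.res_mul _ (hq.le _ b1) _ hf, a4, a5, ← a1] at a2
  exact mul_left_cancel₀ a3 a2

theorem base_gg : ∀ᶠ z in 𝓝 (y' : S'.W), S'.π z = S.π (gg s s' m z) := by
  filter_upwards [s'.base.filter_mono (nhds_le_nhdsSet y'.2),
    (s'.cont.tendsto y').eventually (m.base.filter_mono (nhds_le_nhdsSet (s'.mem _ y'.2))),
    (tendsto_gg hr B e).eventually (s.base.filter_mono (nhds_le_nhdsSet y.2)),
    near hr B e univ_mem] with z a1 a2 a3 a4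
  rw [a1, a2, a3, a4.2]

end loc

end ModgAux

open ModgAux

theorem modg (n : ℕ) : MODG n := by
  intro N K L _ _ _ _ S S' M M' P s s' m hr hS hS' B hon
  choose y e using exists_pt (s := s) (s' := s') hS B
  refine ⟨⟨gg s s' m, fun z hz => cont_gg hr B (e ⟨z, hz⟩), fun z hz => ?_, ?_, fun z hz => ?_,
    eventually_nhdsSet_iff_forall.2 fun z hz => base_gg hr B (e ⟨z, hz⟩),
    fun u => gen_iff.2 fun z hz => val_gg hr B (e ⟨z, hz⟩) hS hS' u⟩, fun z hz => ?_⟩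
  · obtain ⟨c, h1, h2, h3⟩ := chart hr B (e ⟨z, hz⟩) hS
    exact hol_of h1 h2 h3
  · refine Subset.antisymm ?_ fun v hv => ?_
    · rintro _ ⟨z, hz, rfl⟩
      rw [gg_eq (e ⟨z, hz⟩)]
      exact (y _).2
    · obtain ⟨x', h1, h2⟩ := hon (pt s ⟨v, hv⟩) ((s.on _).2 ⟨v, hv, rfl⟩)
      obtain ⟨z, hz, h3⟩ := (s'.on x').1 h2
      exact ⟨z, hz, gg_eq (by rw [h3, h1])⟩
  · rw [gg_eq (e ⟨z, hz⟩)]
    exact dom_gg hr B (e ⟨z, hz⟩) hS hS'
  · change s.ι (gg s s' m z) = _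
    rw [gg_eq (e ⟨z, hz⟩)]
    exact e ⟨z, hz⟩

end Vale.Agent.P277Z.Rs
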