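import Vale.Agent.P277Z.Rst.Defs

/-!
# P277Z, block RST: change of the residue field
-/

set_option linter.all false

open scoped Topology
open Set Filter
open Vale.Agent.P297 (Place)

noncomputable section

namespace Vale.Agent.P277Z.Rs

variable {n N : ℕ} {K L : Type} [Field K] [Algebra ℂ K] [Field L] [Algebra ℂ L] {S : Mdl n N L}
  {M : Mdl (n + 1) N K} {P : Place K} (s : Sub S M P)

theorem Trp.eq_iff {f g : K} (hf : f ∈ P.ring) (hg : g ∈ P.ring) :
    s.res f = s.res g ↔ f - g = 0 ∨ 0 < P.ord (f - g) := by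
  have h := s.res_add _ (sub_mem hf hg) _ hg
  rw [sub_add_cancel] at h
  rw [← s.res_zero _ (sub_mem hf hg), h, add_eq_right]

theorem Trp.le (y : S.F) : ∀ f ∈ M.O (pt s y), f ∈ P.ring :=
  ((s.on (pt s y)).2 ⟨y, y.2, rfl⟩).choose_spec.le

theorem trp (n : ℕ) : TRP n := by
  intro N K L L' _ _ _ _ _ _ S S' M M' P s s' hp
  choose p hp1 hp2 using s.res_surj
  have e : ∀ f ∈ P.ring, s'.res (p (s.res f)) = s'.res f := fun f hf =>
    (Trp.eq_iff s' (hp1 _) hf).2 ((Trp.eq_iff s (hp1 _) hf).1 (hp2 _))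
  have ea : ∀ u v, s'.res (p (u + v)) = s'.res (p u) + s'.res (p v) := fun u v => by
    rw [← s'.res_add _ (hp1 u) _ (hp1 v), ← e _ (add_mem (hp1 u) (hp1 v)),
      s.res_add _ (hp1 u) _ (hp1 v), hp2, hp2]
  have em : ∀ u v, s'.res (p (u * v)) = s'.res (p u) * s'.res (p v) := fun u v => by
    rw [← s'.res_mul _ (hp1 u) _ (hp1 v), ← e _ (mul_mem (hp1 u) (hp1 v)),
      s.res_mul _ (hp1 u) _ (hp1 v), hp2, hp2]
  have ec : ∀ c, s'.res (p (algebraMap ℂ L c)) = algebraMap ℂ L' c := fun c => by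
    obtain ⟨y, hy⟩ := S.conn.nonempty
    rw [← s.res_const, e _ (Trp.le s ⟨y, hy⟩ _ (algebraMap_mem _ c)), s'.res_const]
  let T : Mdl n N L :=
    { toGeo := S'.toGeo
      val := fun u => S'.val (s'.res (p u))
      val_add := fun u v => by rw [ea]; exact S'.val_add _ _
      val_mul := fun u v => by rw [em]; exact S'.val_mul _ _
      val_const := fun c y => by rw [ec]; exact S'.val_const c y
      mer := fun u => S'.mer _
      can := fun u => S'.can _
      surj := fun a ha => by
        obtain ⟨u, hu⟩ := S'.surj a ha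
        obtain ⟨f, hf, rfl⟩ := s'.res_surj u
        exact ⟨s.res f, by rwa [e f hf]⟩ }
  refine ⟨T,
    { ι := s'.ι, cont := s'.cont, inj := s'.inj, hol := s'.hol, mem := s'.mem, on := s'.on
      base := s'.base, res := s.res, res_add := s.res_add, res_mul := s.res_mul
      res_const := s.res_const, res_zero := s.res_zero, res_surj := s.res_surj
      val := fun y f hf => ?_, img := s'.img, coord := fun y t i h1 h2 => ?_ }, hp, rfl⟩
  · change ∀ᶠ z in 𝓝 (y : S'.W), S'.val (s'.res (p (s.res f))) z = _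
    rw [e f (Trp.le s' y f hf)]
    exact s'.val y f hf
  · have k := s'.coord y t i h1 h2
    rw [← funext fun j => e _ (Trp.le s' y _ (h1.1 (i.succAbove j)).1)] at k
    exact k

end Vale.Agent.P277Z.Rs
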