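import Vale.Agent.P277Z.Rst.Main
import Vale.Agent.P277Z.Rst.Adj
import Vale.Agent.P277Z.Rst.Trp
import Vale.Agent.P277Z.Rst.Modg
import Vale.Agent.P277Z.Bir.Opn

/-!
# P277Z, block RST: the end
-/

set_option linter.all false

open scoped Topology
open Set Filter
open Vale.Agent.P297 (Place)
open Vale.Agent.P297Z

noncomputable section

namespace Vale.Agent.P277Z

open Bi

theorem Rs.ons_of {n : ℕ} (hl : LOC n) : ONS n := by
  intro N K _ _ M hM M' m hM' x P ⟨t, ht⟩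
  have hL := hl N K M hM
  have hL' := hl N K M' hM'
  have t0 := gn_ne ht
  by_contra h
  let S : Submonoid K :=
    { carrier := {b | b ∈ M.O x ∧ b ≠ 0 ∧ P.ord b = 0}
      one_mem' := ⟨one_mem _, one_ne_zero, Pl.ord_one P⟩
      mul_mem' := fun a b => ⟨mul_mem a.1 b.1, mul_ne_zero a.2.1 b.2.1, by
        rw [Pl.ord_mul P a.2.1 b.2.1, a.2.2, b.2.2, add_zero]⟩ }
  obtain ⟨b, ⟨h1, h2, h3⟩, h4⟩ := fib_mul m x S (fun _ h => h.1)
    (p := fun b y => b / t ∈ M'.O y) (fun y hy => by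
      have k1 : ¬ M'.Ct y P := fun k => h ⟨y, hy, on_of_loc hL' k fun f hf =>
        let ⟨b, a1, a2, a3, a4⟩ := ht.loc f hf
        ⟨b, O_le m hy a1, a2, a3, O_le m hy a4⟩⟩
      obtain ⟨f, k2, k3⟩ : ∃ f ∈ M'.O y, f ∉ P.ring := by simpa [Mdl.Ct] using k1
      have f0 : f ≠ 0 := fun k => k3 (k ▸ P.ring.zero_mem)
      have k4 : P.ord f < 0 := not_le.1 fun k => k3 ((Pl.ord_nonneg_iff P f0).1 k)
      obtain ⟨b, a1, a2, a3, a4⟩ := ht.loc f⁻¹
        ((Pl.ord_nonneg_iff P (inv_ne_zero f0)).1 (by rw [Pl.ord_inv]; omega))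
      refine ⟨b, ⟨a1, a2, a3⟩, M'.O_near ?_⟩
      have k5 : b / t = f * (b * f⁻¹ / t) := by field_simp
      exact k5 ▸ mul_mem k2 (O_le m hy (ht.dvd _ a4 (by
        rw [Pl.ord_mul P a2 (inv_ne_zero f0), Pl.ord_inv]; omega))))
    fun y hy b _ c hc k => mul_div_assoc c b t ▸ mul_mem (O_le m hy hc) k
  have h5 := opn m hL hL' x (p := fun z => M.val t (m.g z) = 0 → M.val b (m.g z) = 0)
    fun y hy => by
      filter_upwards [M'.nhds_mul (O_le m hy ht.mem) (h4 y hy), (val_near m hy ht.mem).2,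
        (val_near m hy h1).2] with z k1 k2 k3 k4
      rwa [mul_div_cancel₀ _ t0, k3, k2, k4, zero_mul] at k1
  obtain ⟨w, ⟨k1, k2⟩, z, rfl, k3⟩ := ((freq_of hL ht h1 h2 h3).and_eventually h5).exists
  exact k2 (k3 k1)

/-- **RST** -/
theorem rst_of {n : ℕ} (h1 : LOC (n + 1)) (h2 : LOC n) (h3 : POS (n + 1)) (h4 : COP (n + 1))
    (h5 : SUB n) : RST n :=
  Rs.rst_of h1 h2 h3 h5 (bir_of h1 h3 h4) (Rs.ons_of h1) (Rs.adj n) (Rs.trp n) (Rs.modg n)

end Vale.Agent.P277Z
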