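import Vale.Agent.P277Z.Spec

/-!
# P277Z, block RST: statements
-/

set_option linter.all false

open scoped Topology
open Set Filter
open Vale.Agent.P297 (Place)

noncomputable section

namespace Vale.Agent.P277Z

/-- **ONS**: the strict transform of a prime divisor meets every fibre over it -/
def ONS (n : ℕ) : Prop := ForM n fun N K _ _ M => ∀ (M' : Mdl n N K) (m : Mod M' M), M'.Proj →
  ∀ (x : M.F) P, M.On x P → ∃ y : M'.F, m.g y = x ∧ M'.On y P

namespace Rs

/-- the image of a point of the fibre -/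
abbrev pt {n N : ℕ} {K L : Type} [Field K] [Algebra ℂ K] [Field L] [Algebra ℂ L] {S : Mdl n N L}
    {M : Mdl (n + 1) N K} {P : Place K} (s : Sub S M P) (y : S.F) : M.F := ⟨s.ι y, s.mem y y.2⟩

/-- **ADJ**: the residue of the Jacobian determinant -/
def ADJ (n : ℕ) : Prop :=
  ∀ (N : ℕ) (K L : Type) [Field K] [Algebra ℂ K] [Field L] [Algebra ℂ L] (S : Mdl n N L)
    (M : Mdl (n + 1) N K) (P : Place K) (s : Sub S M P) (y : S.F) (t g : Fin (n + 1) → K)
    (i : Fin (n + 1)) (j : K) (j' : L), M.Coord (pt s y) t → M.Gn (pt s y) P (t i) →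
    P.ord (g 0) = 1 → (∀ k : Fin n, g k.succ ∈ P.ring) → M.Jac g t j →
    S.Jac (fun k => s.res (g k.succ)) (fun k => s.res (t (i.succAbove k))) j' → j' ≠ 0 →
    j ≠ 0 ∧ P.ord j = 0 ∧ s.res j = (-1) ^ (i : ℕ) * s.res (g 0 / t i) * j'

/-- **TRP**: change of the residue field -/
def TRP (n : ℕ) : Prop :=
  ∀ (N : ℕ) (K L L' : Type) [Field K] [Algebra ℂ K] [Field L] [Algebra ℂ L] [Field L']
    [Algebra ℂ L'] (S : Mdl n N L) (S' : Mdl n N L') (M M' : Mdl (n + 1) N K) (P : Place K)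
    (s : Sub S M P), Sub S' M' P → S'.Proj →
    ∃ (S'' : Mdl n N L) (s'' : Sub S'' M' P), S''.Proj ∧ s''.res = s.res

/-- **MODG**: the strict transform is a modification -/
def MODG (n : ℕ) : Prop :=
  ∀ (N : ℕ) (K L : Type) [Field K] [Algebra ℂ K] [Field L] [Algebra ℂ L] (S S' : Mdl n N L)
    (M M' : Mdl (n + 1) N K) (P : Place K) (s : Sub S M P) (s' : Sub S' M' P) (m : Mod M' M),
    s'.res = s.res → M.Snc {P} → M'.Snc {P} → Bir M' M m →
    (∀ x : M.F, M.On x P → ∃ y : M'.F, m.g y = x ∧ M'.On y P) →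
    ∃ m' : Mod S' S, ∀ y ∈ S'.F, s.ι (m'.g y) = m.g (s'.ι y)

end Rs

end Vale.Agent.P277Z
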