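import Vale.Agent.P277Z.Rst.Bas
import Vale.Agent.P277Z.Lbd.Build

/-!
# P277Z, block RST: the coefficients of the restriction
-/

set_option linter.all false

open scoped Topology
open Set Filter
open Vale.Agent.P297 (Place)
open Vale.Agent.P297Z

noncomputable section

namespace Vale.Agent.P277Z.Rs

theorem lc_congr {α : Type} {v : α → ℝ} {D E : α →₀ ℝ} (h : ∀ a, v a ≠ 0 → D a = E a) :
    Finsupp.linearCombination ℝ v D = Finsupp.linearCombination ℝ v E := by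
  rw [← sub_eq_zero, ← map_sub, Finsupp.linearCombination_apply]
  refine Finset.sum_eq_zero fun a _ => ?_
  by_cases k : v a = 0
  · simp [k]
  · simp [h a k]

theorem lc_sum {α β : Type} (v : α → ℝ) (D : β →₀ ℝ) (E : β → α →₀ ℝ) :
    Finsupp.linearCombination ℝ v (D.sum fun b c => c • E b) =
      D.sum fun b c => c * Finsupp.linearCombination ℝ v (E b) := by
  simp only [Finsupp.sum, map_sum, map_smul, smul_eq_mul]

theorem sum_smul_apply {α β : Type} (D : β →₀ ℝ) (E : β → α →₀ ℝ) (a : α) :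
    (D.sum fun b c => c • E b) a = D.sum fun b c => c * E b a := by
  simp only [Finsupp.sum, Finsupp.finset_sum_apply, Finsupp.smul_apply, smul_eq_mul]

section sep

variable {n N : ℕ} {K : Type} [Field K] [Algebra ℂ K] {M : Mdl n N K}

theorem unit_ord (hM : Loc M) {x : M.F} {f : K} (hf : f ∈ M.O x) (h : M.val f x ≠ 0) :
    f ≠ 0 ∧ ∀ R, M.On x R → R.ord f = 0 :=
  ⟨fun k => h (by rw [k, M.val_zero]), fun _ hR => Bert.ord_unit hM hR hf h⟩

/-- a function which vanishes on `R` at `x` and is a unit at `x₀` -/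
theorem sepf (hM : Loc M) (hP : Pos M) {x x₀ : M.F} {R : Place K} (h : M.On x R)
    (h₀ : ¬ M.On x₀ R) : ∃ f ∈ M.O x, f ≠ 0 ∧ 0 < R.ord f ∧ ∀ R', M.On x₀ R' → R'.ord f = 0 := by
  classical
  obtain ⟨A, -, hA, hA'⟩ := hP.ex
  obtain ⟨m₁, h1⟩ := hP.gg A (-Finsupp.single R 1) hA' hA fun Q => by
    rw [Finsupp.neg_apply, Finsupp.single_apply]
    split_ifs
    exacts [⟨-1, by simp⟩, ⟨0, by simp⟩]
  obtain ⟨m₂, h2⟩ := hP.gg A 0 hA' hA fun Q => ⟨0, by simp⟩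
  obtain ⟨f, f1, f0, f2⟩ := h1 (max m₁ m₂) (le_max_left _ _) x₀
  obtain ⟨u, u1, u0, u2⟩ := h2 (max m₁ m₂) (le_max_right _ _) x
  obtain ⟨v, v1, v0, v2⟩ := h2 (max m₁ m₂) (le_max_right _ _) x₀
  replace f1 := f1.resolve_left f0
  replace u1 := u1.resolve_left u0
  replace v1 := v1.resolve_left v0
  simp only [zero_add, Finsupp.add_apply, Finsupp.neg_apply, Finsupp.single_apply] at f1 f2 u1 u2 v1 v2
  have a1 : v / u ∈ M.O x := hM.mem x _ fun Q hQ => by
    rw [Pl.ord_div Q v0 u0, ← Int.cast_nonneg_iff (R := ℝ)]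
    push_cast
    linarith [u2 Q hQ, v1 Q ⟨x, hQ⟩]
  have a2 : u / v ∈ M.O x₀ := hM.mem x₀ _ fun Q hQ => by
    rw [Pl.ord_div Q u0 v0, ← Int.cast_nonneg_iff (R := ℝ)]
    push_cast
    linarith [v2 Q hQ, u1 Q ⟨x₀, hQ⟩]
  obtain ⟨c, hc⟩ := (Set.toFinite {-(M.val (v / u) x)⁻¹, -M.val (u / v) x₀}).exists_notMem
  simp only [mem_insert_iff, mem_singleton_iff, not_or] at hc
  have c1 := (M.O x).algebraMap_mem c
  have c2 := (M.O x₀).algebraMap_mem c
  obtain ⟨b1, b2⟩ := unit_ord hM (add_mem (one_mem _) (mul_mem c1 a1)) (by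
    rw [M.val_add_at (one_mem _) (mul_mem c1 a1), M.val_mul_at c1 a1, M.val_one, M.val_const]
    exact fun k => hc.1 (by
      rw [← inv_neg]
      exact eq_inv_of_mul_eq_one_left (by linear_combination -k)))
  obtain ⟨b3, b4⟩ := unit_ord hM (add_mem a2 c2) (by
    rw [M.val_add_at a2 c2, M.val_const]
    exact fun k => hc.2 (by linear_combination k))
  have e1 : u + algebraMap ℂ K c * v = u * (1 + algebraMap ℂ K c * (v / u)) := by field_simp
  have e2 : u + algebraMap ℂ K c * v = v * (u / v + algebraMap ℂ K c) := by field_simp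
  have w0 : u + algebraMap ℂ K c * v ≠ 0 := e1 ▸ mul_ne_zero u0 b1
  have k1 : ∀ Q, M.On x Q → (if R = Q then 1 else 0) ≤ Q.ord (f / (u + algebraMap ℂ K c * v)) :=
    fun Q hQ => by
      rw [Pl.ord_div Q f0 w0, e1, Pl.ord_mul Q u0 b1, b2 Q hQ, ← Int.cast_le (R := ℝ)]
      push_cast
      linarith [u2 Q hQ, f1 Q ⟨x, hQ⟩]
  refine ⟨f / (u + algebraMap ℂ K c * v), hM.mem x _ fun Q hQ => le_trans (by positivity) (k1 Q hQ),
    div_ne_zero f0 w0, lt_of_lt_of_le (by simp) (k1 R h), fun Q hQ => ?_⟩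
  rw [Pl.ord_div Q f0 w0, e2, Pl.ord_mul Q v0 b3, b4 Q hQ, ← Int.cast_inj (α := ℝ)]
  have := f2 Q hQ
  rw [if_neg fun k : R = Q => h₀ (k ▸ hQ)] at this
  push_cast
  linarith [v2 Q hQ]

end sep

variable {n N : ℕ} {K L : Type} [Field K] [Algebra ℂ K] [Field L] [Algebra ℂ L] {S : Mdl n N L}
  {M : Mdl (n + 1) N K} {P : Place K} (s : Sub S M P) {f : K} {y y₀ : S.F} {Q : Place L}

/-- the order along `Q` of the restriction of a divisor, computed at `y` -/
def rho (y : S.F) (Q : Place L) : Div K →ₗ[ℝ] ℝ :=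
  Finsupp.linearCombination ℝ fun R => (Q.ord (s.res (M.eqn (pt s y) R)) : ℝ)

theorem rho_single (R : Place K) :
    rho s y Q (Finsupp.single R 1) = Q.ord (s.res (M.eqn (pt s y) R)) := by
  simp [rho]

theorem res_eqn (y : S.F) : s.res (M.eqn (pt s y) P) = 0 :=
  res_pos s (by rw [(Bi.gn_eqn (on_pt s y)).ord]; norm_num)

theorem on_of_ne {R : Place K} (h : Q.ord (s.res (M.eqn (pt s y) R)) ≠ 0) :
    M.On (pt s y) R ∧ R ≠ P := by
  refine ⟨by_contra fun k => h (by rw [Bi.eqn_of_not k, res_one]; simp), ?_⟩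
  rintro rfl
  exact h (by rw [res_eqn]; simp)

theorem rho_congr {D E : Div K} (h : ∀ R, M.On (pt s y) R → R ≠ P → D R = E R) :
    rho s y Q D = rho s y Q E :=
  lc_congr fun R k => let ⟨a, b⟩ := on_of_ne s (Int.cast_ne_zero.1 k); h R a b

theorem rho_nonneg (hQ : S.Ct y Q) {D : Div K} (h : ∀ R, M.On (pt s y) R → 0 ≤ D R) :
    0 ≤ rho s y Q D := by
  refine Finset.sum_nonneg fun R _ => ?_
  by_cases k : Q.ord (s.res (M.eqn (pt s y) R)) = 0
  · simp [k]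
  · exact mul_nonneg (h R (on_of_ne s k).1)
      (Int.cast_nonneg_iff.2 (Bi.ct_nonneg hQ (res_mem s (Bi.eqn_mem _ R))))

theorem ord_eqn (hM : Loc M) (y : S.F) {R : Place K} (h : R ≠ P) :
    P.ord (M.eqn (pt s y) R) = 0 := by
  rw [Bi.ord_eqn hM (on_pt s y), if_neg h]

theorem ord_res (hM : Loc M) (hQ : S.Ct y Q) (hf : f ≠ 0) (h : P.ord f = 0) :
    (Q.ord (s.res f) : ℝ) = rho s y Q (M.div f) := by
  obtain ⟨u, h0, h1, h2⟩ := Bi.fac hM (pt s y) hf
  have h3 : ∀ R ∈ (M.div f).support, M.Pr R ∧ P.ord (M.eqn (pt s y) R) = 0 := fun R hR => by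
    have k := Finsupp.mem_support_iff.1 hR
    rw [Bi.div_apply hM] at k
    refine ⟨by_contra fun a => k (if_neg a), ord_eqn s hM y ?_⟩
    rintro rfl
    simp [h] at k
  have h4 : ∀ R ∈ (M.div f).support, M.eqn (pt s y) R ^ R.ord f ∈ P.ring := fun R hR =>
    ring_of (by rw [Pl.ord_zpow, (h3 R hR).2, mul_zero])
  have h5 : ∀ R ∈ (M.div f).support, s.res (M.eqn (pt s y) R ^ R.ord f) ≠ 0 := fun R hR =>
    res_ne s (zpow_ne_zero _ (Bi.eqn_ne _ _)) (by rw [Pl.ord_zpow, (h3 R hR).2, mul_zero])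
  have h6 := h1 P (on_pt s y)
  conv_lhs => rw [h2, s.res_mul _ (ring_of h6.ge) _ (prod_mem h4), res_prod s _ h4,
    Pl.ord_mul Q (res_ne s h0 h6) (Finset.prod_ne_zero_iff.2 h5), res_unit s hM h1 hQ, zero_add,
    Bi.ord_prod Q _ _ h5]
  rw [Int.cast_sum]
  refine Finset.sum_congr rfl fun R hR => ?_
  rw [res_zpow s (h3 R hR).2, Pl.ord_zpow, Bi.div_pr hM f (h3 R hR).1]
  simp

theorem on_of_two (hM : Loc M) (hP : Pos M) (hQ : S.Ct y Q) (hQ₀ : S.Ct y₀ Q) {R : Place K}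
    (h : Q.ord (s.res (M.eqn (pt s y) R)) ≠ 0) : M.On (pt s y₀) R := by
  by_contra k
  obtain ⟨h1, h2⟩ := on_of_ne s h
  obtain ⟨f, f1, f0, f2, f3⟩ := sepf hM hP h1 k
  have a1 := (Bi.gn_eqn h1).dvd f f1 f2
  have a2 := ord_eqn s hM y h2
  have a3 := Bi.ct_nonneg hQ (res_mem s a1)
  have a4 := Bi.ct_nonneg hQ (res_mem s (Bi.eqn_mem (pt s y) R))
  rw [res_div s (mem_ring s f1) a2, Pl.ord_div Q (res_ne s f0 (f3 P (on_pt s y₀)))
    (res_ne s (Bi.eqn_ne _ _) a2), res_unit s hM f3 hQ₀] at a3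
  omega

theorem indep (hM : Loc M) (hP : Pos M) (hQ : S.Ct y Q) (hQ₀ : S.Ct y₀ Q) :
    rho s y₀ Q = rho s y Q := by
  classical
  unfold rho
  congr 1
  funext R
  by_cases h : R = P
  · rw [h, res_eqn, res_eqn]
  rw [ord_res s hM hQ (Bi.eqn_ne _ _) (ord_eqn s hM y₀ h), ← rho_single]
  refine lc_congr fun R' k => ?_
  have k1 := on_of_two s hM hP hQ hQ₀ (Int.cast_ne_zero.1 k)
  rw [Bi.div_pr hM _ ⟨_, k1⟩, Bi.ord_eqn hM k1, Finsupp.single_apply]
  split_ifs <;> simp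

theorem pt_cont : Continuous (pt s) := (s.cont.comp continuous_subtype_val).subtype_mk _

theorem near_res (hM : Loc M) (y : S.F) (R : Place K) : ∀ᶠ z in 𝓝 y, ∀ Q, S.Ct z Q →
    Q.ord (s.res (M.eqn (pt s z) R)) = Q.ord (s.res (M.eqn (pt s y) R)) := by
  classical
  by_cases h : R = P
  · exact .of_forall fun z Q _ => by rw [h, res_eqn, res_eqn]
  filter_upwards [(pt_cont s).continuousAt.eventually (Lb.near_ord hM (pt s y) R)] with z hz Q hQ
  rw [← Int.cast_inj (α := ℝ), ord_res s hM hQ (Bi.eqn_ne _ _) (ord_eqn s hM y h), ← rho_single]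
  refine rho_congr s fun R' k _ => ?_
  rw [Bi.div_pr hM _ ⟨_, k⟩, hz R' k, Finsupp.single_apply]
  split_ifs <;> simp

theorem rs_not (D : Div K) (h : ¬ S.Pr Q) : s.rs D Q = 0 := Bi.mkDiv_zero (dif_neg h)

theorem rs_apply (hM : Loc M) (hS : Loc S) (hP : Pos M) (D : Div K) (h : S.On y Q) :
    s.rs D Q = rho s y Q D := by
  have : CompactSpace S.F := isCompact_iff_compactSpace.1 S.cpt
  obtain ⟨T, hT⟩ := CompactSpace.elim_nhds_subcover _ fun y : S.F =>
    (eventually_all_finset D.support).2 fun R _ => near_res s hM y R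
  have hQ : S.Pr Q := ⟨y, h⟩
  rw [Sub.rs, Bi.mkDiv_apply, dif_pos hQ, ← indep s hM hP (Bi.on_ct h) (Bi.on_ct hQ.choose_spec)]
  · rfl
  refine (T.finite_toSet.biUnion fun z _ => D.support.finite_toSet.biUnion fun R _ =>
    hS.fin (s.res (M.eqn (pt s z) R))).subset fun Q' hQ' => ?_
  by_cases k : S.Pr Q'
  · rw [Function.mem_support, dif_pos k] at hQ'
    obtain ⟨R, h1, h2⟩ := Finset.exists_ne_zero_of_sum_ne_zero hQ'
    obtain ⟨z, h3, h4⟩ := mem_iUnion₂.1 (hT.ge (mem_univ k.choose))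
    refine mem_iUnion₂.2 ⟨z, h3, mem_iUnion₂.2 ⟨R, h1, k, ?_⟩⟩
    rw [← h4 R h1 Q' (Bi.on_ct k.choose_spec)]
    exact Int.cast_ne_zero.1 (right_ne_zero_of_mul h2)
  · exact absurd (dif_neg k) hQ'

end Vale.Agent.P277Z.Rs
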