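import Vale.Agent.P277Z.Rst.Bas
import Vale.Agent.P277Z.Sub.Geo

/-!
# P277Z, block RST: the embedding is an immersion near the fibre
-/

set_option linter.all false

open scoped Manifold ContDiff Topology
open Set Filter
open Vale.Agent.P272.K (Cm Chart At cHess)
open Vale.Agent.P297 (Place)

noncomputable section

namespace Vale.Agent.P277Z.Rs

theorem inner_inj {p q r : ℕ} {T : Cm p → Cm q} {G : Cm q → Cm r} {F : Cm p → Cm r} {z : Cm p}
    (hT : AnalyticAt ℂ T z) (hG : AnalyticAt ℂ G (T z)) (h : F =ᶠ[𝓝 z] fun w => G (T w))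
    (hF : Function.Injective (fderiv ℂ F z)) : Function.Injective (fderiv ℂ T z) := by
  rw [h.fderiv_eq, fderiv_fun_comp z hG.differentiableAt hT.differentiableAt] at hF
  exact Function.Injective.of_comp hF

variable {n N : ℕ} {K L : Type} [Field K] [Algebra ℂ K] [Field L] [Algebra ℂ L] {S : Mdl n N L}
  {M : Mdl (n + 1) N K} {P : Place K} (s : Sub S M P)

theorem imm_near (h : M.Snc {P}) (y : S.F) : ∀ᶠ z in 𝓝 (y : S.W),
    ∀ (c : Chart n S.W) (e : Chart (n + 1) M.W), At c z → At e (s.ι z) →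
      AnalyticAt ℂ (fun w => e (s.ι (c.symm w))) (c z) ∧
      Function.Injective (fderiv ℂ (fun w => e (s.ι (c.symm w))) (c z)) := by
  obtain ⟨t, i, h1, h2⟩ := coord s h y
  have hc := Lo.at_chartAt (n := n) (y : S.W)
  set c := chartAt (Cm n) (y : S.W)
  have h3 := s.coord y t i h1 h2
  have h4 := (Bert.an_pi hc fun j => (h3.1 j).1).fderiv.continuousAt.eventually
    (ContinuousLinearMap.isOpen_injective.mem_nhds (Bert.jd_ne_iff.1 (h3.2 c hc)))
  filter_upwards [(c.continuousAt hc.2).eventually h4, c.open_source.mem_nhds hc.2, hol_near s y,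
    eventually_all.2 fun j => Hol.near (h3.1 j).1,
    (eventually_all.2 fun j => s.val y _ (h1.1 (i.succAbove j)).1).eventually_nhds,
    s.cont.continuousAt.eventually (eventually_all.2 fun j => Hol.near (h1.1 j).1)]
    with z a1 a2 a3 a4 a5 a6 c' e hc' he
  have b1 : AnalyticAt ℂ (fun w => e (s.ι (c'.symm w))) (c' z) := AnalyticAt.pi fun k =>
    a3 (fun w => e w k) (fun _ he' => analyticAt_pi_iff.1 (trans_an he he') k) c' hc'
  refine ⟨b1, inner_inj (G := fun w j => M.val (t (i.succAbove j)) (e.symm w)) b1 ?_ ?_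
    (Bert.jd_ne_iff.1 (Bert.jd_ne_of_chart ⟨hc.1, a2⟩ hc' a4 (Bert.jd_ne_iff.2 a1)))⟩
  · rw [c'.left_inv hc'.2]
    exact AnalyticAt.pi fun j => a6 _ e he
  · filter_upwards [(Lo.tendsto_symm hc').eventually a5, (s.cont.continuousAt.tendsto.comp
      (Lo.tendsto_symm hc')).eventually (e.open_source.mem_nhds he.2)] with w b2 b3
    funext j
    exact (b2 j).trans (congrArg _ (e.left_inv b3).symm)

theorem spsh_near (h : M.Snc {P}) (y : S.F) : ∀ᶠ z in 𝓝 (y : S.W), ∀ φ : M.W → ℝ,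
    Spsh (n + 1) φ (s.ι z) → Spsh n (fun w => φ (s.ι w)) z :=
  (imm_near s h y).mono fun _ hz _ hφ => SubH.spsh_of_imm s.cont hz hφ

include s in
theorem proj (h : M.Snc {P}) (hM : M.Proj) : S.Proj := by
  obtain ⟨B, ψ, hB, h1, h2⟩ := hM
  let O := interior {z : S.W | (∀ a, Hol (n + 1) a (s.ι z) → Hol n (fun w => a (s.ι w)) z) ∧
    ∀ φ : M.W → ℝ, Spsh (n + 1) φ (s.ι z) → Spsh n (fun w => φ (s.ι w)) z}
  refine ⟨⟨B.ι, fun i => s.ι ⁻¹' B.U i ∩ O, fun i j z => B.g i j (s.ι z)⟩,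
    fun i z => ψ i (s.ι z), ⟨fun i => ((hB.isOpen i).preimage s.cont).inter isOpen_interior,
      fun y hy => ?_, fun i j z hi hj => (interior_subset hi.2).1 _ (hB.holo i j _ hi.1 hj.1),
      fun i j z hi hj => hB.ne_zero i j _ hi.1 hj.1,
      fun i j k z hi hj hk => hB.cocycle i j k _ hi.1 hj.1 hk.1⟩,
    fun i z hi => (interior_subset hi.2).2 _ (h1 i _ hi.1), fun i j z hi hj => h2 i j _ hi.1 hj.1⟩
  obtain ⟨i, hi⟩ := hB.cover _ (s.mem y hy)
  exact ⟨i, hi, mem_interior_iff_mem_nhds.2 ((hol_near s ⟨y, hy⟩).and (spsh_near s h ⟨y, hy⟩))⟩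

end Vale.Agent.P277Z.Rs
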