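import Vale.Agent.P277Z.Rst.Alg
import Vale.Agent.P277Z.Rst.Geo
import Vale.Agent.P272.K.C2.Wirt

/-!
# P277Z, block RST: the restriction of an ample divisor
-/

set_option linter.all false

open scoped Manifold ContDiff Topology ComplexOrder
open Set Filter
open Vale.Agent.P272.K (Cm Chart At cHess)
open Vale.Agent.P297 (Place)
open Vale.Agent.P297Z

noncomputable section

namespace Vale.Agent.P277Z.Rs

section spsh

variable {n : ℕ} {W : Type} [TopologicalSpace W] [ChartedSpace (Cm n) W] {φ : W → ℝ} {x : W}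

theorem spsh_sub_mul (h : Spsh n φ x) {u : W → ℂ} (hu : Hol n u x) (h0 : u x ≠ 0) (c : ℝ) :
    Spsh n (fun y => φ y - c * Real.log (‖u y‖ ^ 2)) x := fun e he => by
  have h1 : u (e.symm (e x)) ≠ 0 := by rwa [e.left_inv he.2]
  have h2 : ContDiffAt ℝ ∞ (fun z => Real.log (‖u (e.symm z)‖ ^ 2)) (e x) :=
    ((((hu e he).contDiffAt (n := ∞)).restrict_scalars ℝ).norm_sq ℂ).log
      (pow_ne_zero _ (norm_ne_zero_iff.2 h1))
  have k : (2 : WithTop ℕ∞) ≤ ∞ := WithTop.coe_le_coe.2 (le_top (a := (2 : ℕ∞)))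
  refine ⟨(h e he).1.sub (contDiffAt_const.mul h2), ?_⟩
  rw [P272.K.C2.cHess_sub ((h e he).1.of_le k) ((contDiffAt_const.mul h2).of_le k),
    P272.K.C2.cHess_const_mul c (h2.of_le k), P272.K.cHess_log_norm_sq (hu e he).contDiffAt h1,
    smul_zero, sub_zero]
  exact (h e he).2

theorem spsh_sub_sum {ι : Type*} (T : Finset ι) (h : Spsh n φ x) {u : ι → W → ℂ}
    (hu : ∀ i ∈ T, Hol n (u i) x ∧ u i x ≠ 0) (c : ι → ℝ) :
    Spsh n (fun y => φ y - ∑ i ∈ T, c i * Real.log (‖u i y‖ ^ 2)) x := by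
  induction T using Finset.cons_induction with
  | empty => simpa using h
  | cons i T hi ih =>
    have h1 := hu i (Finset.mem_cons_self _ _)
    simpa only [Finset.sum_cons, sub_sub, add_comm] using
      spsh_sub_mul (ih fun j hj => hu j (Finset.mem_cons_of_mem hj)) h1.1 h1.2 (c i)

end spsh

variable {n N : ℕ} {K L : Type} [Field K] [Algebra ℂ K] [Field L] [Algebra ℂ L] {S : Mdl n N L}
  {M : Mdl (n + 1) N K} {P : Place K} (s : Sub S M P)

theorem log_val (hS : Loc S) (y : S.F) {a : L} (ha : a ≠ 0) : ∃ u ∈ S.O y, S.val u y ≠ 0 ∧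
    ∀ᶠ z in gen {(y : S.W)}, S.lg y (S.div a) z =
      Real.log (‖S.val a z‖ ^ 2) - Real.log (‖S.val u z‖ ^ 2) := by
  obtain ⟨u, h0, h1, h2⟩ := Bi.fac hS y ha
  refine ⟨u, (Lb.unit_of hS h0 h1).1, (Lb.unit_of hS h0 h1).2, S.at_pt ?_ y⟩
  filter_upwards [Lb.lg_eq y (D := S.div a) (k := fun Q => Q.ord a) fun Q hQ =>
    Bi.div_pr hS a ⟨y, hQ⟩, S.val_mul u (Lb.eqD S y (S.div a).support fun Q => Q.ord a),
    S.val_ne h0, S.val_ne (Lb.eqD_ne y (S.div a).support fun Q => Q.ord a)] with z a1 a2 a3 a4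
  rw [a1, show S.val a z = _ from (congrArg (S.val · z) h2).trans a2, Lb.log_mul_sq a3 a4]
  ring

theorem rs_div (hM : Loc M) (hS : Loc S) (hP : Pos M) (D : Div K) {y : S.F} {Q : Place L}
    (h : S.On y Q) : s.rs D Q = (D.sum fun R c => c • S.div (s.res (M.eqn (pt s y) R))) Q := by
  rw [rs_apply s hM hS hP D h, sum_smul_apply]
  exact Finset.sum_congr rfl fun R _ => congrArg (D R * ·) (Bi.div_pr hS _ ⟨y, h⟩).symm

theorem amp (hM : Loc M) (hS : Loc S) (hP : Pos M) (h : M.Snc {P}) (A : Div K) (hA : A P = 0)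
    (hA' : M.Amp A) : S.Amp (s.rs A) := by
  obtain ⟨G, hG⟩ := hA'
  refine ⟨fun z => limUnder (gen {s.ι z}) G, fun y => ?_⟩
  obtain ⟨φ, h1, h2⟩ := hG (pt s y)
  have h3 : ∀ R ∈ A.support, s.res (M.eqn (pt s y) R) ≠ 0 := fun R hR =>
    res_ne s (Bi.eqn_ne _ _) (ord_eqn s hM y fun k => Finsupp.mem_support_iff.1 hR (k ▸ hA))
  choose! u u1 u2 u3 using fun R hR => log_val hS y (h3 R hR)
  have hι : Tendsto s.ι (𝓝 y) (𝓝 (pt s y : M.W)) := s.cont.continuousAt
  refine ⟨fun z => φ (s.ι z) - ∑ R ∈ A.support, A R * Real.log (‖S.val (u R) z‖ ^ 2), ?_, ?_⟩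
  · filter_upwards [spsh_near s h y, hι.eventually h1, (eventually_all_finset A.support).2
      fun R hR => (Hol.near (u1 R hR)).and (Lo.hol_ne (u1 R hR) (u2 R hR))] with z a1 a2 a3
      using spsh_sub_sum _ (a1 φ a2) a3 A
  filter_upwards [(eventually_all_finset A.support).2 u3, (eventually_all_finset A.support).2
    fun R hR => S.at_pt (S.val_ne (h3 R hR)) y, gen_of_nhds ((eventually_all_finset A.support).2
    fun R _ => (s.val y _ (Bi.eqn_mem (pt s y) R)).and (hι.eventually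
      (Hol.near (Bi.eqn_mem (pt s y) R)))), gen_of_nhds (hι.eventually (h1.and (gen_near h2)))]
    with z a1 a2 a3 a4
  have b1 : ContinuousAt (fun w => M.lg (pt s y) A w - φ w) (s.ι z) :=
    (tendsto_finset_sum _ fun R hR => continuousAt_const.mul
      ((a3 R hR).2.cont_log ((a3 R hR).1 ▸ a2 R hR))).sub a4.1.cont
  rw [((b1.tendsto.mono_left (gen_le_nhds _)).congr' (a4.2.mono fun _ => Eq.symm)).limUnder_eq]
  have b2 : S.lg y (s.rs A) z = A.sum fun R c => c * S.lg y (S.div (s.res (M.eqn (pt s y) R))) z :=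
    (lc_congr fun Q k => rs_div s hM hS hP A (by_contra fun k' => k (by
      rw [Bi.eqn_of_not k', S.val_one]; simp))).trans (lc_sum _ A _)
  rw [b2, Finsupp.sum, Finset.sum_congr rfl fun R hR => by rw [a1 R hR, (a3 R hR).1, mul_sub],
    Finset.sum_sub_distrib, Mdl.lg, Finsupp.sum]
  ring

end Vale.Agent.P277Z.Rs
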