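import Vale.Agent.P277Z.Rst.Defs
import Vale.Agent.P277Z.Lo.Base
import Vale.Agent.P277Z.Bir.Alg
import Vale.Agent.P277Z.Bert.Api

/-!
# P277Z, block RST: the residue map
-/

set_option linter.all false

open scoped Manifold ContDiff Topology
open Set Filter
open Vale.Agent.P272.K (Cm Chart At cHess)
open Vale.Agent.P297 (Place)
open Vale.Agent.P297Z

noncomputable section

namespace Vale.Agent.P277Z.Rs

variable {n N : ℕ} {K L : Type} [Field K] [Algebra ℂ K] [Field L] [Algebra ℂ L] {S : Mdl n N L}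
  {M : Mdl (n + 1) N K} {P : Place K} (s : Sub S M P) {f g : K} {y : S.F}

theorem on_pt (y : S.F) : M.On (pt s y) P := (s.on _).2 ⟨y, y.2, rfl⟩

theorem mem_ring (hf : f ∈ M.O (pt s y)) : f ∈ P.ring := Bi.on_ct (on_pt s y) f hf

theorem ring_of (hf : 0 ≤ P.ord f) : f ∈ P.ring := by
  by_cases h : f = 0
  · rw [h]; exact zero_mem _
  · exact (Pl.ord_nonneg_iff P h).1 hf

theorem res_one : s.res 1 = 1 := by simpa using s.res_const 1

theorem res_zero : s.res 0 = 0 := by simpa using s.res_const 0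

theorem res_ne (hf : f ≠ 0) (h : P.ord f = 0) : s.res f ≠ 0 := fun h0 =>
  ((s.res_zero f (ring_of h.ge)).1 h0).elim hf fun k => by omega

theorem res_pos (h : 0 < P.ord f) : s.res f = 0 := (s.res_zero f (ring_of h.le)).2 (Or.inr h)

theorem of_res_ne (hf : f ∈ P.ring) (h : s.res f ≠ 0) : f ≠ 0 ∧ P.ord f = 0 := by
  have h1 := (s.res_zero f hf).not.1 h
  have h2 := Pl.ord_nonneg_of_mem P hf
  exact ⟨fun k => h1 (Or.inl k), by omega⟩

theorem res_inv (h : P.ord f = 0) : s.res f⁻¹ = (s.res f)⁻¹ := by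
  by_cases hf : f = 0
  · simp [hf, res_zero]
  have h1 := s.res_mul f (ring_of h.ge) f⁻¹ (ring_of (by rw [Pl.ord_inv, h]; rfl))
  rw [mul_inv_cancel₀ hf, res_one] at h1
  exact eq_inv_of_mul_eq_one_right h1.symm

theorem res_div (hf : f ∈ P.ring) (h : P.ord g = 0) : s.res (f / g) = s.res f / s.res g := by
  rw [div_eq_mul_inv, s.res_mul f hf _ (ring_of (by rw [Pl.ord_inv, h]; rfl)), res_inv s h,
    div_eq_mul_inv]

theorem res_pow (hf : f ∈ P.ring) (k : ℕ) : s.res (f ^ k) = s.res f ^ k := by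
  induction k with
  | zero => simpa using res_one s
  | succ k ih => rw [pow_succ, s.res_mul _ (pow_mem hf k) _ hf, ih, pow_succ]

theorem res_zpow (h : P.ord f = 0) (k : ℤ) : s.res (f ^ k) = s.res f ^ k := by
  obtain ⟨m, rfl | rfl⟩ := Int.eq_nat_or_neg k
  · simpa using res_pow s (ring_of h.ge) m
  · rw [zpow_neg, zpow_neg, zpow_natCast, zpow_natCast, res_inv s (by rw [Pl.ord_pow, h, mul_zero]),
      res_pow s (ring_of h.ge)]

theorem res_prod {ι : Type*} (T : Finset ι) {a : ι → K} (h : ∀ i ∈ T, a i ∈ P.ring) :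
    s.res (∏ i ∈ T, a i) = ∏ i ∈ T, s.res (a i) := by
  induction T using Finset.cons_induction with
  | empty => simpa using res_one s
  | cons i T hi ih =>
    have h1 : ∀ j ∈ T, a j ∈ P.ring := fun j hj => h j (Finset.mem_cons_of_mem hj)
    rw [Finset.prod_cons, Finset.prod_cons, s.res_mul _ (h i (Finset.mem_cons_self _ _)) _
      (prod_mem h1), ih h1]

theorem res_mem (hf : f ∈ M.O (pt s y)) : s.res f ∈ S.O y :=
  (s.hol y y.2 _ hf).congr ((s.val y f hf).mono fun _ => Eq.symm)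

theorem res_at (hf : f ∈ M.O (pt s y)) : S.val (s.res f) y = M.val f (s.ι y) :=
  (s.val y f hf).self_of_nhds

theorem frac {m : ℕ} {M : Mdl m N K} {x : M.F} (hP : M.On x P) (hf : f ∈ P.ring) :
    ∃ b ∈ M.O x, b ≠ 0 ∧ P.ord b = 0 ∧ b * f ∈ M.O x := hP.choose_spec.loc f hf

/-- the residue of a unit is a unit -/
theorem res_unit (hM : Loc M) (hf : ∀ R, M.On (pt s y) R → R.ord f = 0) {Q : Place L}
    (hQ : S.Ct y Q) : Q.ord (s.res f) = 0 :=
  Pl.ord_unit Q (hQ _ (res_mem s (Bi.unit_of hM hf).1))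
    (res_inv s (hf P (on_pt s y)) ▸ hQ _ (res_mem s (Bi.unit_of hM hf).2))

theorem coord (h : M.Snc {P}) (y : S.F) : ∃ t i, M.Coord (pt s y) t ∧ M.Gn (pt s y) P (t i) :=
  let ⟨t, h1, h2⟩ := h.2 (pt s y)
  let ⟨i, hi⟩ := h2 P rfl (on_pt s y)
  ⟨t, i, h1, hi⟩

theorem an_at (y : S.F) {c : Chart n S.W} {e : Chart (n + 1) M.W} (hc : At c (y : S.W))
    (he : At e (s.ι y)) : AnalyticAt ℂ (fun z => e (s.ι (c.symm z))) (c y) :=
  AnalyticAt.pi fun k => s.hol y y.2 (fun w => e w k)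
    (fun _ he' => analyticAt_pi_iff.1 (trans_an he he') k) c hc

theorem hol_of_an {z : S.W} {c : Chart n S.W} {e : Chart (n + 1) M.W} (hc : At c z)
    (he : At e (s.ι z)) (h : AnalyticAt ℂ (fun z => e (s.ι (c.symm z))) (c z)) {a : M.W → ℂ}
    (ha : Hol (n + 1) a (s.ι z)) : Hol n (fun w => a (s.ι w)) z := by
  refine Hol.of_chart hc (((ha e he).comp_of_eq' h (by rw [c.left_inv hc.2])).congr ?_)
  filter_upwards [(s.cont.continuousAt.tendsto.comp (Lo.tendsto_symm hc)).eventually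
    (e.open_source.mem_nhds he.2)] with w hw using congrArg a (e.left_inv hw)

/-- the embedding is holomorphic near the fibre -/
theorem hol_near (y : S.F) : ∀ᶠ z in 𝓝 (y : S.W), ∀ a, Hol (n + 1) a (s.ι z) →
    Hol n (fun w => a (s.ι w)) z := by
  have hc := Lo.at_chartAt (n := n) (y : S.W)
  have he := Lo.at_chartAt (n := n + 1) (s.ι y)
  filter_upwards [((chartAt (Cm n) (y : S.W)).continuousAt hc.2).eventually
    (an_at s y hc he).eventually_analyticAt, (chartAt (Cm n) (y : S.W)).open_source.mem_nhds hc.2,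
    s.cont.continuousAt.eventually ((chartAt (Cm (n + 1)) (s.ι y)).open_source.mem_nhds he.2)]
    with z h1 h2 h3 a ha using hol_of_an s ⟨hc.1, h2⟩ ⟨he.1, h3⟩ h1 ha

end Vale.Agent.P277Z.Rs
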