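import Vale.Agent.P277Z.Rst.Amp

/-!
# P277Z, block RST: assembly
-/

set_option linter.all false

open scoped Topology
open Set Filter
open Vale.Agent.P272.K (Cm Chart At)
open Vale.Agent.P297 (Place)
open Vale.Agent.P297Z

noncomputable section

namespace Vale.Agent.P277Z.Rs

variable {n N : ℕ} {K L : Type} [Field K] [Algebra ℂ K] [Field L] [Algebra ℂ L] {S : Mdl n N L}
  {M : Mdl (n + 1) N K} {P : Place K} (s : Sub S M P) (hM : Loc M) (hS : Loc S) (hP : Pos M)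

include hM hS hP

theorem rs_ext {D : Div K} {E : Div L} (h0 : ∀ Q, ¬ S.Pr Q → E Q = 0)
    (h : ∀ y Q, S.On y Q → rho s y Q D = E Q) : s.rs D = E := by
  ext Q
  by_cases k : S.Pr Q
  · obtain ⟨y, hy⟩ := k
    rw [rs_apply s hM hS hP D hy, h y Q hy]
  · rw [rs_not s D k, h0 Q k]

theorem div (f : K) (hf : f ≠ 0) (h : P.ord f = 0) : s.rs (M.div f) = S.div (s.res f) :=
  rs_ext s hM hS hP (fun Q k => by rw [Bi.div_apply hS, if_neg k]) fun y Q k => by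
    rw [Bi.div_pr hS _ ⟨y, k⟩, ord_res s hM (Bi.on_ct k) hf h]

theorem sec (D : Div K) (hD : D P = 0) (f : K) (hf : f ∈ M.H0 D) : s.res f ∈ S.H0 (s.rs D) := by
  refine or_iff_not_imp_left.2 fun h Q ⟨y, hQ⟩ => ?_
  have f0 : f ≠ 0 := fun k => h (by rw [k, res_zero])
  have h1 := hf.resolve_left f0
  have h2 := h1 P ⟨_, on_pt s y⟩
  rw [hD, add_zero, Int.cast_nonneg_iff] at h2
  rw [rs_apply s hM hS hP D hQ, ord_res s hM (Bi.on_ct hQ) f0 (of_res_ne s (ring_of h2) h).2,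
    ← map_add]
  refine rho_nonneg s (Bi.on_ct hQ) fun R hR => ?_
  rw [Finsupp.add_apply, Bi.div_pr hM _ ⟨_, hR⟩]
  exact h1 R ⟨_, hR⟩

theorem snc (T : Set (Place K)) (hT : P ∈ T) (h : M.Snc T) :
    S.Snc {Q | ∃ R ∈ T, R ≠ P ∧ s.rs (Finsupp.single R 1) Q ≠ 0} ∧
    ∀ R ∈ T, R ≠ P → ∀ Q, s.rs (Finsupp.single R 1) Q = 0 ∨ s.rs (Finsupp.single R 1) Q = 1 := by
  have key : ∀ y : S.F, ∃ τ, S.Coord y τ ∧ ∀ R ∈ T, ∀ Q, S.On y Q →
      s.rs (Finsupp.single R 1) Q ≠ 0 → s.rs (Finsupp.single R 1) Q = 1 ∧ ∃ j, S.Gn y Q (τ j) := by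
    intro y
    obtain ⟨t, h1, h2⟩ := h.2 (pt s y)
    obtain ⟨i, hi⟩ := h2 P hT (on_pt s y)
    have h3 := s.coord y t i h1 hi
    refine ⟨_, h3, fun R hR Q hQ k => ?_⟩
    rw [rs_apply s hM hS hP _ hQ, rho_single] at k ⊢
    obtain ⟨k1, k2⟩ := on_of_ne s (Int.cast_ne_zero.1 k)
    obtain ⟨l, hl⟩ := h2 R hR k1
    have k3 : P.ord (t l) = 0 := hM.other _ R P _ hl (on_pt s y) k2.symm
    obtain ⟨j, rfl⟩ := Fin.exists_succAbove_eq (x := l) (y := i) (by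
      rintro rfl
      rw [hi.ord] at k3
      exact one_ne_zero k3)
    have k4 : (Q.ord (s.res (M.eqn (pt s y) R)) : ℝ) = Q.ord (s.res (t (i.succAbove j))) := by
      rw [ord_res s hM (Bi.on_ct hQ) (Bi.gn_ne hl) k3,
        ord_res s hM (Bi.on_ct hQ) (Bi.eqn_ne _ _) (ord_eqn s hM y k2)]
      refine rho_congr s fun R' a _ => ?_
      rw [Bi.div_pr hM _ ⟨_, a⟩, Bi.div_pr hM _ ⟨_, a⟩,
        Bi.gn_ord_eq (Bi.gn_eqn k1) hl (Bi.on_ct a)]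
    rw [k4] at k ⊢
    have he := Lo.at_chartAt (n := n) (y : S.W)
    have k5 : S.Gn y Q (s.res (t (i.succAbove j))) := by
      refine Bert.gn_of_fderiv hS hQ (h3.1 j).1 (lt_of_le_of_ne (Bert.ord_nonneg hQ (h3.1 j).1)
        (Int.cast_ne_zero.1 k).symm) he fun a => ?_
      have a1 := Bert.jd_ne_iff.1 (h3.2 _ he)
      obtain ⟨v, hv⟩ := (LinearMap.injective_iff_surjective
        (f := (fderiv ℂ _ _ : Cm n →L[ℂ] Cm n).toLinearMap)).1 a1 (Pi.single j 1)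
      have a2 := congrFun hv j
      rw [fderiv_pi fun l => ((h3.1 l).1 _ he).differentiableAt] at a2
      simp [a] at a2
    exact ⟨by rw [k5.ord, Int.cast_one], j, k5⟩
  refine ⟨⟨fun Q ⟨R, _, _, k⟩ => by_contra fun a => k (rs_not s _ a), fun y => ?_⟩,
    fun R hR _ Q => or_iff_not_imp_left.2 fun k => ?_⟩
  · obtain ⟨τ, h1, h2⟩ := key y
    exact ⟨τ, h1, fun Q ⟨R, a, _, b⟩ hQ => (h2 R a Q hQ b).2⟩
  · obtain ⟨y, hy⟩ : S.Pr Q := by_contra fun a => k (rs_not s _ a)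
    obtain ⟨τ, -, h2⟩ := key y
    exact (h2 R hR Q hy k).1

theorem adj_of (hA : ADJ n) (h : M.Snc {P}) (g : Fin (n + 1) → K) (κ : Div K) (κ' : Div L)
    (h0 : P.ord (g 0) = 1) (hg : ∀ i : Fin n, g i.succ ∈ P.ring) (hκ : M.Can g κ)
    (hκ' : S.Can (fun i => s.res (g i.succ)) κ') :
    κ P = 0 ∧ κ' = s.rs (κ + Finsupp.single P 1 - M.div (g 0)) := by
  have key : ∀ y : S.F, ∃ f : K, f ≠ 0 ∧ P.ord f = 0 ∧ κ P = 0 ∧
      (∀ R, M.On (pt s y) R → R ≠ P → κ R - R.ord (g 0) = R.ord f) ∧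
      ∀ Q, S.On y Q → κ' Q = Q.ord (s.res f) := by
    intro y
    obtain ⟨t, i, h1, h2⟩ := coord s h y
    obtain ⟨j, hj⟩ := hM.jac _ t g h1
    have h3 := s.coord y t i h1 h2
    obtain ⟨j', hj'⟩ := hS.jac _ _ (fun i => s.res (g i.succ)) h3
    obtain ⟨a1, a2⟩ := hκ'.2 y _ j' h3 hj'
    obtain ⟨b1, b2, b3⟩ := hA N K L S M P s y t g i j j' h1 h2 h0 hg hj hj' a1
    have a3 := (hκ.2 _ t j h1 hj).2
    have g0 : g 0 ≠ 0 := fun k => by simp [k] at h0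
    have t0 := Bi.gn_ne h2
    have c1 : P.ord (g 0 / t i) = 0 := by rw [Pl.ord_div P g0 t0, h0, h2.ord, sub_self]
    have c2 := div_ne_zero g0 t0
    refine ⟨j / (g 0 / t i), div_ne_zero b1 c2, by rw [Pl.ord_div P b1 c2, b2, c1, sub_self],
      by rw [a3 P (on_pt s y), b2, Int.cast_zero], fun R a b => ?_, fun Q hQ => ?_⟩
    · rw [Pl.ord_div R b1 c2, Pl.ord_div R g0 t0, hM.other _ P R _ h2 a b, a3 R a]
      push_cast
      ring
    · have c3 : ((-1 : L) ^ (i : ℕ)) ≠ 0 := pow_ne_zero _ (neg_ne_zero.2 one_ne_zero)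
      rw [a2 Q hQ, res_div s (ring_of b2.ge) c1, b3, mul_right_comm,
        mul_div_cancel_right₀ _ (res_ne s c2 c1), Pl.ord_mul Q c3 a1, Pl.ord_pow,
        Pl.ord_unit Q (x := -1) (neg_mem (one_mem _)) (by simpa using neg_mem (one_mem Q.ring))]
      simp
  obtain ⟨y, hy⟩ := S.conn.nonempty
  refine ⟨(key ⟨y, hy⟩).choose_spec.2.2.1, (rs_ext s hM hS hP (fun Q k => by_contra fun a =>
    k (hκ'.1 Q (Finsupp.mem_support_iff.2 a))) fun y Q hQ => ?_).symm⟩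
  obtain ⟨f, f0, f1, -, f2, f3⟩ := key y
  rw [f3 Q hQ, ord_res s hM (Bi.on_ct hQ) f0 f1]
  refine rho_congr s fun R a b => ?_
  rw [Finsupp.sub_apply, Finsupp.add_apply, Finsupp.single_eq_of_ne b, Bi.div_pr hM _ ⟨_, a⟩,
    Bi.div_pr hM _ ⟨_, a⟩, add_zero, f2 R a b]

theorem pull {S' : Mdl n N L} {M' : Mdl (n + 1) N K} (s' : Sub S' M' P) (hM' : Loc M')
    (hS' : Loc S') (hP' : Pos M') {m : Mod M' M} (hB : Bir M' M m) (m' : Mod S' S)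
    (e : s'.res = s.res) (e' : ∀ y ∈ S'.F, s.ι (m'.g y) = m.g (s'.ι y)) (D : Div K)
    (hD : D P = 0) : s'.rs (M.pull M' D) = S.pull S' (s.rs D) := by
  refine rs_ext s' hM' hS' hP' (fun Q k => Bi.pull_not _ k) fun y' Q hQ => ?_
  obtain ⟨y, hy⟩ : ∃ y : S.F, m'.g y' = y := ⟨⟨_, m'.img ▸ mem_image_of_mem _ y'.2⟩, rfl⟩
  have h1 : m.g (pt s' y') = pt s y := (e' _ y'.2).symm.trans (congrArg s.ι hy)
  have h2 : S.Ct y Q := fun f hf => Bi.on_ct hQ f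
    (S'.mem_O_of (m'.hol _ y'.2 _ (hy ▸ hf)) (S'.at_pt (m'.val f) y'))
  have h3 : ∀ R ∈ D.support, P.ord (M.eqn (pt s y) R) = 0 := fun R hR =>
    ord_eqn s hM y fun k => Finsupp.mem_support_iff.1 hR (k ▸ hD)
  rw [Bi.pull_ct hS hS' _ ⟨_, hQ⟩ h2, Bi.ordAt_congr Q fun Q' k => rs_div s hM hS hP D k,
    rho_congr s' (E := D.sum fun R c => c • M'.div (M.eqn (pt s y) R)) fun R a _ => by
      rw [hB.pull _ _ R D h1 a, sum_smul_apply]
      exact Finset.sum_congr rfl fun R' _ => congrArg (D R' * ·) (Bi.div_pr hM' _ ⟨_, a⟩).symm]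
  refine (lc_sum _ D _).trans (Eq.trans (Finset.sum_congr rfl fun R hR => congrArg (D R * ·) ?_)
    (lc_sum (fun Q' => (Q.ord (S.eqn y Q') : ℝ)) D _).symm)
  refine (ord_res s' hM' (Bi.on_ct hQ) (Bi.eqn_ne _ _) (h3 R hR)).symm.trans ?_
  rw [e]
  exact Bi.ord_eq_ordAt hS h2 (res_ne s (Bi.eqn_ne _ _) (h3 R hR))

omit hM hS hP in
theorem rst_of (h1 : LOC (n + 1)) (h2 : LOC n) (h3 : POS (n + 1)) (h4 : SUB n) (h5 : BIR (n + 1))
    (h6 : ONS (n + 1)) (h7 : ADJ n) (h8 : TRP n) (h9 : MODG n) : RST n := by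
  intro N K _ _ M hp L _ _ S P s h
  have hM := h1 N K M hp
  have hS := h2 N L S (proj s h hp)
  have hP := h3 N K M hp
  refine ⟨fun y Q D _ hQ => rs_apply s hM hS hP D hQ, div s hM hS hP, sec s hM hS hP,
    amp s hM hS hP h, snc s hM hS hP, adj_of s hM hS hP h7 h, fun M' m hp' h' => ?_⟩
  obtain ⟨L', _, _, S₀, a1, ⟨s₀⟩⟩ := h4 N K M' hp' P h'
  obtain ⟨S', s', a2, a3⟩ := h8 N K L L' S S₀ M M' P s s₀ a1
  have hB := h5 N K M hp M' m hp'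
  obtain ⟨m', a4⟩ := h9 N K L S S' M M' P s s' m a3 h h' hB fun x => h6 N K M hp M' m hp' x P
  exact ⟨S', s', m', a2, a3,
    pull s hM hS hP s' (h1 N K M' hp') (h2 N L S' a2) (h3 N K M' hp') hB m' a3 a4⟩

end Vale.Agent.P277Z.Rs
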